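import Vale.Agent.P352X.CA.W2
import Vale.Agent.P352Z.P352X.R.BAS
import Vale.Agent.P352Z.P352X.TPD.Fin
import Vale.Agent.P352G.Top

open Vale.Agent.P352G

/-!
# P352X, block CA: from the standing assumptions to the context
-/

set_option linter.all false

open Filter Topology
open scoped ComplexConjugate

namespace Vale.Agent.P352X.CA

open Vale.Agent.P352 Vale.Agent.P352.GF Vale.Agent.P352.BW Vale.Agent.P352.H246
open Vale.Agent.P352.H496 Vale.Agent.P352.H755 Vale.Agent.P352.H15
open Vale.Agent.P352.SubConf (IsAdj)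
open TPD (Lsc)
open UniformSpace (Completion)

noncomputable section

variable {D : Type*} [NormedAddCommGroup D] [InnerProductSpace ℂ D] [GrD D]

theorem mix_ctxZ (c : CtxZ D) : MixC c.Q := by
  intro v w
  have hU := ublockZ c.hN.toRepZ
  have h1 : inner ℂ (om c.Q) (om c.Q) = 1 := by
    rw [inner_self_eq_norm_sq_to_K, om, Completion.norm_coe, c.Q.norm_vac]
    simp
  set κ : ℂ := inner ℂ (om c.Q) v
  have h0 : inner ℂ c.Om (v - κ • om c.Q) = 0 := by
    show inner ℂ (om c.Q) _ = 0
    rw [inner_sub_right, inner_smul_right, h1, mul_one, sub_self]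
  have h := (bas_thmZ c).wn {r : ℝ // 0 < r} (comap Subtype.val (𝓝 0)) Subtype.val (fun _ => 1)
    (fun _ => 0) (fun _ => v - κ • om c.Q) _ w (fun r => ⟨r.2, one_pos⟩)
    (Or.inr (Or.inl tendsto_comap)) tendsto_const_nhds h0
  have h2 := ((Complex.continuous_conj.tendsto _).comp h).add_const (inner ℂ w (om c.Q) * κ)
  rw [map_zero, zero_add] at h2
  rw [nhdsWithin, show Set.Ioi (0 : ℝ) = Set.range (Subtype.val : {r : ℝ // 0 < r} → ℝ) from
    Subtype.range_coe_subtype.symm, ← Filter.map_comap, tendsto_map'_iff]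
  · refine h2.congr fun r => ?_
    obtain ⟨p1, p2⟩ := lsc_pos r.2
    have e1 : ∀ z, Ut c.Q 0 z = z := fun z => by
      obtain ⟨W, hW⟩ := hU.lin 1 GF.one 0 one_pos H496.isLor_one
      refine W.injective ?_
      rw [hW, hW, Ut, Ug_apply _ one_pos H496.isLor_one, hU.mul _ _ _ _ _ _ _ one_pos one_pos
        H496.isLor_one H496.isLor_one (.inl rfl)]
      congr 1
      · exact one_mul 1
      · funext m n
        simp [sim, GF.one, bas]
      · funext n
        simp [sim]
    have e2 : Usc c.Q r 1 (v - κ • om c.Q) =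
        Ue c.Q (Real.sqrt (r * 1)) (Lsc r 1) 0 v - κ • om c.Q := by
      show Ug c.Q (Real.sqrt (r * 1)) (Lsc r 1) 0 _ = _
      rw [map_sub, map_smul, Ug_apply _ p1 p2, Ug_apply _ p1 p2, hU.vac _ _ _ p1 p2]
    simp only [Function.comp_apply, e1, e2, inner_conj_symm, inner_sub_right, inner_smul_right]
    ring

theorem mxz : MXZ D := fun c ξ w _ => mix_ctxZ c w ξ

end

end Vale.Agent.P352X.CA
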